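import Mathlib

/-!
# X261/Loc/Defs: the non-discrete step, interface

`Leaf G M F`: a group `G` acting on a connected invariant open set `S ⊆ M` with an invariant
equivalence relation `R` that is locally the fibre relation of an open map to the complex normed
space `F`, holomorphic returns and equicontinuity.

`IG G E`: abstract infinitesimal data (`v g = h_g - id` in a sup norm).
-/

namespace Crest.Agent.X261.Loc

open Filter Topology Set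

/-- A group acting on a leaf space, equicontinuously and holomorphically. -/
structure Leaf (G : Type*) [Group G] (M : Type*) [TopologicalSpace M]
    (F : Type*) [NormedAddCommGroup F] [NormedSpace ℂ F] where
  act : G → M → M
  act_one : ∀ x, act 1 x = x
  act_mul : ∀ g h x, act (g * h) x = act g (act h x)
  cont : ∀ g, Continuous (act g)
  S : Set M
  opn : IsOpen S
  conn : IsPreconnected S
  ne : S.Nonempty
  sinv : ∀ g, ∀ x ∈ S, act g x ∈ S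
  R : M → M → Prop
  refl : ∀ x ∈ S, R x x
  symm : ∀ x ∈ S, ∀ y ∈ S, R x y → R y x
  trans : ∀ x ∈ S, ∀ y ∈ S, ∀ z ∈ S, R x y → R y z → R x z
  rinv : ∀ g, ∀ x ∈ S, ∀ y ∈ S, R x y → R (act g x) (act g y)
  /-- chart domain at `x` -/
  U : M → Set M
  /-- chart map at `x` -/
  π : M → M → F
  U_opn : ∀ x ∈ S, IsOpen (U x)
  U_mem : ∀ x ∈ S, x ∈ U x
  U_sub : ∀ x ∈ S, U x ⊆ S
  π_cont : ∀ x ∈ S, ContinuousOn (π x) (U x)
  π_opn : ∀ x ∈ S, ∀ y ∈ U x, ∀ W ∈ 𝓝 y, π x '' W ∈ 𝓝 (π x y)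
  π_rel : ∀ x ∈ S, ∀ y ∈ U x, ∀ z ∈ U x, (R y z ↔ π x y = π x z)
  /-- returns to a chart are holomorphic -/
  hol : ∀ x ∈ S, ∀ g, ∀ y ∈ U x, ∀ z ∈ U x, R (act g y) z →
    ∃ h : F → F, DifferentiableAt ℂ h (π x y) ∧
      ∀ᶠ y' in 𝓝 y, ∃ z' ∈ U x, R (act g y') z' ∧ π x z' = h (π x y')
  /-- equicontinuity on the diagonal -/
  eqc : ∀ x ∈ S, ∀ W ∈ 𝓝 x, ∃ V ∈ 𝓝 x, ∀ g,
    (∃ y ∈ V, ∃ z ∈ V, R (act g y) z) → ∀ y ∈ V, ∃ z ∈ W, R (act g y) z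

/-- Abstract infinitesimal data on a group. -/
structure IG (G : Type*) [Group G] (E : Type*) [NormedAddCommGroup E] [NormedSpace ℝ E] where
  S : Set G
  v : G → E
  C : ℝ
  δ : ℝ
  δ_pos : 0 < δ
  one_mem : (1 : G) ∈ S
  v_one : v 1 = 0
  inj : ∀ g ∈ S, v g = 0 → g = 1
  mul : ∀ g ∈ S, ∀ h ∈ S, ‖v g‖ < δ → ‖v h‖ < δ →
    g * h ∈ S ∧ ‖v (g * h) - v g - v h‖ ≤ C * ‖v g‖ * ‖v h‖
  inv : ∀ ε > 0, ∃ η > 0, ∀ g ∈ S, ‖v g‖ < η → g⁻¹ ∈ S ∧ ‖v g⁻¹‖ < ε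
  conj : ∀ γ : G, ∀ ε > 0, ∃ η > 0, ∀ g ∈ S, ‖v g‖ < η →
    γ * g * γ⁻¹ ∈ S ∧ ‖v (γ * g * γ⁻¹)‖ < ε
  tb : TotallyBounded ((fun g => ‖v g‖⁻¹ • v g) '' {g | g ∈ S ∧ ‖v g‖ < δ})
  nd : ∀ ε > 0, ∃ g ∈ S, g ≠ 1 ∧ ‖v g‖ < ε

variable {G : Type*} [Group G] {M : Type*} [TopologicalSpace M]
  {F : Type*} [NormedAddCommGroup F] [NormedSpace ℂ F]

/-- (W) a wandering open set. -/
def Leaf.Wand (L : Leaf G M F) : Prop :=
  ∃ W : Set M, IsOpen W ∧ W.Nonempty ∧ W ⊆ L.S ∧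
    ∀ g : G, g ≠ 1 → ∀ y ∈ W, ∀ z ∈ W, ¬ L.R (L.act g y) z

/-- (N) a nontrivial element acting trivially on the leaf space. -/
def Leaf.Triv (L : Leaf G M F) : Prop :=
  ∃ g : G, g ≠ 1 ∧ ∀ z ∈ L.S, L.R (L.act g z) z

/-- small elements of `I` move the leaf of every point of `S` little. -/
def Leaf.Small (L : Leaf G M F) {E : Type*} [NormedAddCommGroup E] [NormedSpace ℝ E]
    (I : IG G E) : Prop :=
  ∀ x ∈ L.S, ∀ W ∈ 𝓝 x, ∃ ε > 0, ∀ g ∈ I.S, ‖I.v g‖ < ε → ∃ y ∈ W, L.R (L.act g x) y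

/-- The output of the group side: a nontrivial normal subgroup `G₀` generated by arbitrarily small
elements, a finite-dimensional representation `ρ`, continuous for the small topology, whose kernel
centralises `G₀`. -/
structure IG.Ad {E : Type*} [NormedAddCommGroup E] [NormedSpace ℝ E] (I : IG G E) where
  G₀ : Subgroup G
  normal : G₀.Normal
  ne_bot : G₀ ≠ ⊥
  gen : ∀ ε > 0, Subgroup.closure {g | g ∈ I.S ∧ ‖I.v g‖ < ε ∧ g ∈ G₀} = G₀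
  opn : ∃ ε > 0, ∀ g ∈ I.S, ‖I.v g‖ < ε → g ∈ G₀
  d : ℕ
  ρ : G →* Matrix.GeneralLinearGroup (Fin d) ℂ
  cont : ∀ ε > 0, ∃ η > 0, ∀ g ∈ I.S, ‖I.v g‖ < η →
    ∀ i j, ‖((ρ g : Matrix (Fin d) (Fin d) ℂ) - 1) i j‖ < ε
  cent : ∀ z : G, ρ z = 1 → ∀ a ∈ G₀, z * a = a * z

end Crest.Agent.X261.Loc
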