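import Mathlib

/-!
# X261/Loc/An: elementary several-variable complex analysis for the non-discrete step
Lipschitz bounds, pointwise-to-uniform convergence, a Vitali type lemma, total boundedness.
-/

namespace Crest.Agent.X261.Loc.An

open Filter Topology Set Metric

variable {F : Type*} [NormedAddCommGroup F] [NormedSpace ℂ F]
  {F' : Type*} [NormedAddCommGroup F'] [NormedSpace ℂ F']

/-- Cauchy–Schwarz-lemma Lipschitz bound. -/
theorem lip_of_bound {f : F → F'} {c : F} {r R A : ℝ} (hrR : r < R)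
    (hd : DifferentiableOn ℂ f (ball c R)) (hb : ∀ t ∈ ball c R, ‖f t‖ ≤ A)
    {a b : F} (ha : a ∈ ball c r) (hb' : b ∈ ball c r) :
    ‖f a - f b‖ ≤ 2 * A / (R - r) * ‖a - b‖ := by
  have hsub : ∀ x ∈ ball c r, ball x (R - r) ⊆ ball c R := by
    intro x hx y hy
    rw [mem_ball] at *
    linarith [dist_triangle y x c]
  have hpos : 0 < R - r := by linarith
  have hder : ∀ x ∈ ball c r, DifferentiableAt ℂ f x := fun x hx =>
    hd.differentiableAt (isOpen_ball.mem_nhds (ball_subset_ball hrR.le hx))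
  have hbd : ∀ x ∈ ball c r, ‖fderiv ℂ f x‖ ≤ 2 * A / (R - r) := by
    intro x hx
    refine Complex.norm_fderiv_le_div_of_mapsTo_ball (hd.mono (hsub x hx)) ?_ hpos
    intro y hy
    rw [mem_closedBall, dist_eq_norm]
    have h1 := hb y (hsub x hx hy)
    have h2 := hb x (ball_subset_ball hrR.le hx)
    linarith [norm_sub_le (f y) (f x)]
  exact (convex_ball c r).norm_image_sub_le_of_norm_fderiv_le hder hbd hb' ha

/-- compactness: local eventual statements are uniform on compact sets. -/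
theorem ev_compact {X ι : Type*} [TopologicalSpace X] {K : Set X} (hK : IsCompact K)
    {l : Filter ι} {P : ι → X → Prop}
    (h : ∀ t ∈ K, ∃ N ∈ 𝓝 t, ∀ᶠ i in l, ∀ s ∈ N, P i s) : ∀ᶠ i in l, ∀ s ∈ K, P i s := by
  refine hK.induction_on (p := fun A => ∀ᶠ i in l, ∀ s ∈ A, P i s) ?_ ?_ ?_ ?_
  · simp
  · intro s t hst ht
    exact ht.mono fun i hi x hx => hi x (hst hx)
  · intro s t hs ht
    filter_upwards [hs, ht] with i h1 h2 x hx
    exact hx.elim (h1 x) (h2 x)
  · intro x hx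
    obtain ⟨N, hN, h'⟩ := h x hx
    exact ⟨N, mem_nhdsWithin_of_mem_nhds hN, h'⟩

/-- three circles along a complex line. -/
theorem three {f : F → F'} {b t : F} {r ρ A ε : ℝ} (hr : 0 < r) (htr : r < ‖t - b‖)
    (htρ : ‖t - b‖ < ρ) (hd : DifferentiableOn ℂ f (closedBall b ρ))
    (hA : ∀ s ∈ closedBall b ρ, ‖f s‖ ≤ A) (hε : ∀ s ∈ closedBall b r, ‖f s‖ ≤ ε) :
    ‖f t‖ ≤ ε ^ (1 - (0 - Real.log (r / ‖t - b‖)) /
        (Real.log (ρ / ‖t - b‖) - Real.log (r / ‖t - b‖))) *
      A ^ ((0 - Real.log (r / ‖t - b‖)) / (Real.log (ρ / ‖t - b‖) - Real.log (r / ‖t - b‖))) := by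
  set d := ‖t - b‖ with hdef
  have hd0 : 0 < d := hr.trans htr
  have hl : Real.log (r / d) < 0 := Real.log_neg (div_pos hr hd0) ((div_lt_one hd0).2 htr)
  have hu : 0 < Real.log (ρ / d) := Real.log_pos ((one_lt_div hd0).2 htρ)
  set φ : ℂ → F := fun z => b + Complex.exp z • (t - b) with hφ
  have hn : ∀ z : ℂ, dist (φ z) b = Real.exp z.re * d := by
    intro z
    simp [hφ, dist_eq_norm, norm_smul, Complex.norm_exp, hdef]
  have hρ0 : 0 < ρ := hd0.trans htρ
  have hmem : ∀ z : ℂ, z.re ≤ Real.log (ρ / d) → φ z ∈ closedBall b ρ := by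
    intro z hz
    rw [mem_closedBall, hn]
    have := Real.exp_le_exp.2 hz
    rw [Real.exp_log (div_pos hρ0 hd0)] at this
    calc Real.exp z.re * d ≤ ρ / d * d := by gcongr
      _ = ρ := by field_simp
  have hφd : Differentiable ℂ φ := by
    simp only [hφ]; fun_prop
  have hdo : DifferentiableOn ℂ (f ∘ φ)
      (Complex.HadamardThreeLines.verticalClosedStrip (Real.log (r / d)) (Real.log (ρ / d))) :=
    hd.comp hφd.differentiableOn fun z hz => hmem z hz.2
  have key := Complex.HadamardThreeLines.norm_le_interp_of_mem_verticalClosedStrip'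
    (f := f ∘ φ) (z := 0) (a := ε) (b := A) (hl.trans hu) ⟨by simpa using hl.le, by simpa using hu.le⟩
    ?_ ?_ ?_ ?_
  · simpa [hφ] using key
  · refine DifferentiableOn.diffContOnCl ?_
    refine hdo.mono ?_
    unfold Complex.HadamardThreeLines.verticalStrip Complex.HadamardThreeLines.verticalClosedStrip
    rw [Complex.closure_preimage_re, closure_Ioo (hl.trans hu).ne]
  · refine ⟨A, ?_⟩
    rintro _ ⟨z, hz, rfl⟩
    exact hA _ (hmem z hz.2)
  · intro z hz
    refine hε _ ?_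
    rw [mem_closedBall, hn]
    have : z.re = Real.log (r / d) := hz
    rw [this, Real.exp_log (div_pos hr hd0)]
    exact le_of_eq (by field_simp)
  · intro z hz
    exact hA _ (hmem z (le_of_eq hz))

/-- Vitali type lemma: pointwise convergence to `0` spreads from a small ball to a large one. -/
theorem vitali [ProperSpace F] {ι : Type*} {l : Filter ι} {f : ι → F → F'} {b : F} {r ρ A : ℝ}
    (hr : 0 < r) (hf : ∀ᶠ i in l, DifferentiableOn ℂ (f i) (ball b ρ) ∧
      ∀ s ∈ ball b ρ, ‖f i s‖ ≤ A)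
    (hp : ∀ s ∈ ball b r, Tendsto (fun i => f i s) l (𝓝 0)) {t : F} (ht : t ∈ ball b ρ) :
    Tendsto (fun i => f i t) l (𝓝 0) := by
  by_cases htr : t ∈ ball b r
  · exact hp t htr
  have ht1 : ‖t - b‖ < ρ := by simpa [dist_eq_norm] using ht
  have ht2 : r ≤ ‖t - b‖ := by simpa [dist_eq_norm] using htr
  obtain ⟨ρ₁, h1, h2⟩ := exists_between ht1
  have hrρ : r < ρ := lt_of_le_of_lt ht2 ht1
  -- uniform convergence on `closedBall b (r/2)`
  have hu : ∀ ε > 0, ∀ᶠ i in l, ∀ s ∈ closedBall b (r / 2), ‖f i s‖ ≤ ε := by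
    intro ε hε
    refine ev_compact (isCompact_closedBall b (r / 2)) ?_
    intro s hs
    have hs' : s ∈ ball b r := closedBall_subset_ball (by linarith) hs
    set Λ := |2 * A / (ρ - r)| + 1 with hΛ
    have hΛ0 : 0 < Λ := by positivity
    refine ⟨ball b r ∩ ball s (ε / 2 / Λ),
      inter_mem (isOpen_ball.mem_nhds hs') (ball_mem_nhds _ (by positivity)), ?_⟩
    have h0 : ∀ᶠ i in l, ‖f i s‖ < ε / 2 := by
      have := (hp s hs').norm
      simp only [norm_zero] at this
      exact this.eventually (gt_mem_nhds (by linarith))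
    filter_upwards [hf, h0] with i hi hi0 s' hs''
    have h3 := lip_of_bound hrρ hi.1 hi.2 hs''.1 hs'
    have h4 : ‖s' - s‖ < ε / 2 / Λ := by simpa [dist_eq_norm] using hs''.2
    have h5 : 2 * A / (ρ - r) * ‖s' - s‖ ≤ Λ * ‖s' - s‖ := by
      gcongr
      linarith [le_abs_self (2 * A / (ρ - r))]
    have h6 : Λ * ‖s' - s‖ ≤ ε / 2 := by
      rw [lt_div_iff₀ hΛ0] at h4; linarith
    have h7 : ‖f i s'‖ ≤ ‖f i s' - f i s‖ + ‖f i s‖ := by
      simpa using norm_add_le (f i s' - f i s) (f i s)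
    linarith
  set d := ‖t - b‖ with hdef
  have hd0 : 0 < d := lt_of_lt_of_le hr ht2
  have hr2 : r / 2 < d := by linarith
  set θ := (0 - Real.log (r / 2 / d)) / (Real.log (ρ₁ / d) - Real.log (r / 2 / d)) with hθ
  have hl : Real.log (r / 2 / d) < 0 :=
    Real.log_neg (div_pos (by linarith) hd0) ((div_lt_one hd0).2 hr2)
  have hu' : 0 < Real.log (ρ₁ / d) := Real.log_pos ((one_lt_div hd0).2 h1)
  have hθ1 : 0 < 1 - θ := by
    rw [hθ, sub_pos, div_lt_one (by linarith)]; linarith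
  rw [tendsto_zero_iff_norm_tendsto_zero]
  have hlim : Tendsto (fun ε : ℝ => ε ^ (1 - θ) * A ^ θ) (𝓝[>] 0) (𝓝 0) := by
    have hc : ContinuousAt (fun ε : ℝ => ε ^ (1 - θ)) 0 :=
      Real.continuousAt_rpow_const 0 _ (Or.inr hθ1.le)
    have := (hc.tendsto.mul_const (A ^ θ)).mono_left (nhdsWithin_le_nhds (s := Ioi 0))
    simpa [Real.zero_rpow hθ1.ne'] using this
  rw [tendsto_order]
  refine ⟨fun a ha => Eventually.of_forall fun i => lt_of_lt_of_le ha (norm_nonneg _), ?_⟩
  intro a ha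
  obtain ⟨ε, hε1, hε0⟩ := ((hlim.eventually (gt_mem_nhds ha)).and self_mem_nhdsWithin).exists
  filter_upwards [hf, hu ε hε0] with i hi hiu
  refine lt_of_le_of_lt ?_ hε1
  exact three (by linarith) hr2 h1 (hi.1.mono (closedBall_subset_ball h2))
    (fun s hs => hi.2 s (closedBall_subset_ball h2 hs)) hiu

omit [NormedSpace ℂ F'] in
open BoundedContinuousFunction in
/-- Arzelà–Ascoli for bounded equi-Lipschitz families. -/
theorem tb_lip {K : Type*} [PseudoMetricSpace K] [CompactSpace K] [ProperSpace F']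
    (T : Set (K →ᵇ F')) (A Λ : ℝ) (hA : ∀ f ∈ T, ∀ x, ‖f x‖ ≤ A)
    (hΛ : ∀ f ∈ T, ∀ x y, ‖f x - f y‖ ≤ Λ * dist x y) : TotallyBounded T := by
  have h := arzela_ascoli (closedBall (0 : F') A) (isCompact_closedBall 0 A) T
    (fun f x hf => by simpa using hA f hf x) ?_
  · exact h.totallyBounded.subset subset_closure
  · refine (Metric.uniformEquicontinuous_of_continuity_modulus (fun s => Λ * s) ?_ _ ?_).equicontinuous
    · have : Continuous fun s : ℝ => Λ * s := by fun_prop
      simpa using this.tendsto 0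
    · intro x y f
      rw [dist_eq_norm]
      exact hΛ f f.2 x y

/-- pigeonhole in a totally bounded set. -/
theorem exists_close {ι X : Type*} [PseudoMetricSpace X] {A : Set ι} (hA : A.Infinite)
    (φ : ι → X) (ht : TotallyBounded (φ '' A)) {δ : ℝ} (hδ : 0 < δ) :
    ∃ a ∈ A, ∃ b ∈ A, a ≠ b ∧ dist (φ a) (φ b) < δ := by
  obtain ⟨T, hT, hc⟩ := Metric.totallyBounded_iff.1 ht (δ / 2) (by linarith)
  have : ∀ a ∈ A, ∃ y ∈ T, φ a ∈ ball y (δ / 2) := by
    intro a ha
    simpa using hc (mem_image_of_mem φ ha)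
  classical
  have : Nonempty X := ⟨φ hA.nonempty.some⟩
  choose! y hy using ‹∀ a ∈ A, ∃ y ∈ T, φ a ∈ ball y (δ / 2)›
  obtain ⟨a, ha, b, hb, hab, he⟩ := hA.exists_ne_map_eq_of_mapsTo (f := y) (fun a ha => (hy a ha).1) hT
  refine ⟨a, ha, b, hb, hab, ?_⟩
  have h1 := (hy a ha).2
  have h2 := (hy b hb).2
  rw [mem_ball] at h1 h2
  rw [← he] at h2
  linarith [dist_triangle_right (φ a) (φ b) (y a)]

end Crest.Agent.X261.Loc.An
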