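import Crest.Agent.X261.Loc.Spr

/-!
# X261/Loc/Car: Cartan averaging, non discreteness, the infinitesimal data
-/

namespace Crest.Agent.X261.Loc.Car

open Filter Topology Set Metric BoundedContinuousFunction
open Crest.Agent.X261.Loc Crest.Agent.X261.Loc.Spr

variable {G : Type*} [Group G] {M : Type*} [TopologicalSpace M]
  {F : Type*} [NormedAddCommGroup F] [NormedSpace ℂ F] [ProperSpace F] (L : Leaf G M F)

/-- elements whose return map is defined on the closed ball -/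
def SS (x : M) (c : F) (ρ : ℝ) : Set G := {g | ∀ t ∈ closedBall c ρ, Df L x g t}

open Classical in
/-- displacement of the return map on the closed ball -/
noncomputable def vv (x : M) (c : F) (ρ : ℝ) (g : G) : closedBall c ρ →ᵇ F :=
  if h : Continuous (fun t : closedBall c ρ => hm L x g t - t) then mkOfCompact ⟨_, h⟩ else 0

variable {L}

theorem vv_apply {x : M} (hx : x ∈ L.S) {c : F} {ρ : ℝ} {g : G} (hg : g ∈ SS L x c ρ)
    (t : closedBall c ρ) : vv L x c ρ g t = hm L x g t - t := by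
  have h : Continuous (fun t : closedBall c ρ => hm L x g t - t) := by
    refine Continuous.sub ?_ continuous_subtype_val
    refine continuous_iff_continuousAt.2 fun t => ?_
    exact ((hg t t.2).diff hx).continuousAt.comp continuous_subtype_val.continuousAt
  rw [vv, dif_pos h]
  rfl

theorem le_vv {x : M} (hx : x ∈ L.S) {c : F} {ρ : ℝ} {g : G} (hg : g ∈ SS L x c ρ)
    {t : F} (ht : t ∈ closedBall c ρ) : ‖hm L x g t - t‖ ≤ ‖vv L x c ρ g‖ := by
  have := (vv L x c ρ g).norm_coe_le_norm ⟨t, ht⟩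
  rwa [vv_apply hx hg] at this

theorem vv_le {x : M} (hx : x ∈ L.S) {c : F} {ρ : ℝ} {g : G} (hg : g ∈ SS L x c ρ) {ε : ℝ}
    (hε : 0 ≤ ε) (h : ∀ t ∈ closedBall c ρ, ‖hm L x g t - t‖ ≤ ε) : ‖vv L x c ρ g‖ ≤ ε :=
  (BoundedContinuousFunction.norm_le hε).2 fun t => by rw [vv_apply hx hg]; exact h t t.2

variable (L) in
/-- the filter of small elements -/
noncomputable def sm (x : M) (c : F) (ρ : ℝ) : Filter G :=
  comap (fun g => ‖vv L x c ρ g‖) (𝓝 0) ⊓ 𝓟 (SS L x c ρ)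

theorem ev_sm {x : M} {c : F} {ρ : ℝ} {P : G → Prop} : (∀ᶠ g in sm L x c ρ, P g) ↔
    ∃ η > 0, ∀ g ∈ SS L x c ρ, ‖vv L x c ρ g‖ < η → P g := by
  rw [sm, eventually_inf_principal, eventually_comap, Metric.eventually_nhds_iff]
  constructor
  · rintro ⟨η, hη, h⟩
    exact ⟨η, hη, fun g hg h1 => h (by simpa using h1) g rfl hg⟩
  · rintro ⟨η, hη, h⟩
    refine ⟨η, hη, fun s hs g he hg => h g hg ?_⟩
    subst he
    simpa using hs

theorem pt_sm {x : M} (hx : x ∈ L.S) {ρ : ℝ} (hρ : 0 < ρ) :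
    ∀ y ∈ L.S, Pt L (sm L x (L.π x x) ρ) y := by
  have hxU := L.U_mem x hx
  refine spread (O := interior (L.U x ∩ L.π x ⁻¹' ball (L.π x x) ρ)) isOpen_interior
    ⟨x, mem_interior_iff_mem_nhds.2 (nhds_chart hx hxU (ball_mem_nhds _ hρ))⟩
    (fun w hw => L.U_sub x hx (interior_subset hw).1) fun w hw => ?_
  obtain ⟨hwU, hw1⟩ := interior_subset hw
  have hw2 : L.π x w ∈ closedBall (L.π x x) ρ := ball_subset_closedBall hw1
  refine pt_of_tendsto hx hwU (ev_sm.2 ⟨1, one_pos, fun g hg _ => hg _ hw2⟩) ?_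
  rw [Metric.tendsto_nhds]
  intro ε hε
  exact ev_sm.2 ⟨ε, hε, fun g hg h => by
    rw [dist_eq_norm]; exact lt_of_le_of_lt (le_vv hx hg hw2) h⟩

/-- a filter converging pointwise everywhere is finer than the filter of small elements -/
theorem le_sm {l : Filter G} (h : ∀ y ∈ L.S, Pt L l y) {x : M} (hx : x ∈ L.S) {c : F} {ρ : ℝ}
    (hK : closedBall c ρ ⊆ L.π x '' L.U x) {ε : ℝ} (hε : 0 < ε) :
    ∀ᶠ g in l, g ∈ SS L x c ρ ∧ ‖vv L x c ρ g‖ < ε := by
  filter_upwards [unif h hx (isCompact_closedBall c ρ) hK (half_pos hε)] with g hg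
  have h1 : g ∈ SS L x c ρ := fun t ht => (hg t ht).1
  exact ⟨h1, lt_of_le_of_lt (vv_le hx h1 (half_pos hε).le fun t ht => (hg t ht).2.le)
    (half_lt_self hε)⟩

variable (L) in
/-- control on the big ball -/
def Big (x : M) (c : F) (ρ : ℝ) (g : G) : Prop :=
  ∀ t ∈ closedBall c (4 * ρ), Df L x g t ∧ ‖hm L x g t - t‖ < ρ / 4

omit [ProperSpace F] in
theorem lip_disp {x : M} (hx : x ∈ L.S) {c : F} {r R A : ℝ} (hrR : r < R) {g : G}
    (hD : ∀ t ∈ ball c R, Df L x g t) (hA : ∀ t ∈ ball c R, ‖hm L x g t - t‖ ≤ A) {a b : F}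
    (ha : a ∈ ball c r) (hb : b ∈ ball c r) :
    ‖(hm L x g a - a) - (hm L x g b - b)‖ ≤ 2 * A / (R - r) * ‖a - b‖ :=
  An.lip_of_bound (f := fun t => hm L x g t - t) hrR
    (fun t ht => (((hD t ht).diff hx).sub differentiableAt_id).differentiableWithinAt) hA ha hb

omit [ProperSpace F] in
theorem Big.lip {x : M} (hx : x ∈ L.S) {c : F} {ρ : ℝ} (hρ : 0 < ρ) {g : G} (hg : Big L x c ρ g)
    {a b : F} (ha : a ∈ ball c (3 * ρ)) (hb : b ∈ ball c (3 * ρ)) :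
    ‖(hm L x g a - a) - (hm L x g b - b)‖ ≤ 1 / 2 * ‖a - b‖ := by
  have := lip_disp hx (show 3 * ρ < 4 * ρ by linarith) (A := ρ / 4)
    (fun t ht => (hg t (ball_subset_closedBall ht)).1)
    (fun t ht => (hg t (ball_subset_closedBall ht)).2.le) ha hb
  refine this.trans_eq ?_
  congr 1
  field_simp
  ring

theorem mul_est {x : M} (hx : x ∈ L.S) {c : F} {ρ : ℝ} (hρ : 0 < ρ) {g g' : G}
    (hg : Big L x c ρ g) (hg' : Big L x c ρ g') {Λ : ℝ} (hΛ0 : 0 ≤ Λ)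
    (hΛ : ∀ a ∈ ball c (3 / 2 * ρ), ∀ b ∈ ball c (3 / 2 * ρ),
      ‖(hm L x g a - a) - (hm L x g b - b)‖ ≤ Λ * ‖a - b‖) :
    g * g' ∈ SS L x c ρ ∧
      ‖vv L x c ρ (g * g') - vv L x c ρ g - vv L x c ρ g'‖ ≤ Λ * ‖vv L x c ρ g'‖ := by
  have hs : closedBall c ρ ⊆ closedBall c (4 * ρ) := closedBall_subset_closedBall (by linarith)
  have h1 : g ∈ SS L x c ρ := fun t ht => (hg t (hs ht)).1
  have h1' : g' ∈ SS L x c ρ := fun t ht => (hg' t (hs ht)).1
  have h2 : ∀ t ∈ closedBall c ρ, hm L x g' t ∈ ball c (3 / 2 * ρ) := by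
    intro t ht
    have := (hg' t (hs ht)).2
    rw [← dist_eq_norm] at this
    rw [mem_closedBall] at ht
    rw [mem_ball]
    linarith [dist_triangle (hm L x g' t) t c]
  have h3 : ∀ t ∈ closedBall c ρ, Df L x (g * g') t ∧
      hm L x (g * g') t = hm L x g (hm L x g' t) := fun t ht =>
    (h1' t ht).mul hx (hg _ (ball_subset_closedBall
      (ball_subset_ball (by linarith) (h2 t ht)))).1
  have h4 : g * g' ∈ SS L x c ρ := fun t ht => (h3 t ht).1
  refine ⟨h4, (BoundedContinuousFunction.norm_le (by positivity)).2 fun t => ?_⟩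
  simp only [BoundedContinuousFunction.coe_sub, Pi.sub_apply]
  rw [vv_apply hx h4, vv_apply hx h1, vv_apply hx h1', (h3 t t.2).2]
  have h5 := hΛ _ (h2 t t.2) t (closedBall_subset_ball (by linarith) t.2)
  have h6 := le_vv hx h1' t.2
  have h7 : hm L x g (hm L x g' t) - t - (hm L x g t - t) - (hm L x g' t - t)
      = hm L x g (hm L x g' t) - hm L x g' t - (hm L x g t - t) := by abel
  rw [h7]
  exact h5.trans (by gcongr)

omit [ProperSpace F] in
/-- Cartan averaging -/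
theorem cartan {x : M} (hx : x ∈ L.S) {c : F} {ρ : ℝ} (hρ : 0 < ρ) {g : G} {n : ℕ}
    (hK : closedBall c (4 * ρ) ⊆ L.π x '' L.U x) (hn : 1 ≤ n)
    (hg : ∀ j ≤ n, Big L x c ρ (g ^ j)) {t : F} (ht : t ∈ ball c (2 * ρ)) :
    (n : ℝ) * ‖hm L x g t - t‖ ≤ ρ / 2 := by
  have hg1 : Big L x c ρ g := by simpa using hg 1 hn
  have ht4 : t ∈ closedBall c (4 * ρ) :=
    ball_subset_closedBall (ball_subset_ball (by linarith) ht)
  have ha : hm L x g t ∈ ball c (3 * ρ) := by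
    have := (hg1 t ht4).2
    rw [← dist_eq_norm] at this
    rw [mem_ball] at ht ⊢
    linarith [dist_triangle (hm L x g t) t c]
  have ha4 : hm L x g t ∈ closedBall c (4 * ρ) :=
    ball_subset_closedBall (ball_subset_ball (by linarith) ha)
  have key : ∀ j ≤ n, ‖(hm L x (g ^ j) t - t) - (j : ℝ) • (hm L x g t - t)‖
      ≤ j * (1 / 2 * ‖hm L x g t - t‖) := by
    intro j hj
    induction j with
    | zero =>
      obtain ⟨y, hy, rfl⟩ := hK ht4
      simp [(df_one hx hy).2]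
    | succ j ih =>
      have h1 := ih (by omega)
      have hj' := hg j (by omega)
      have h2 := ((hg1 t ht4).1.mul hx (hj' _ ha4).1).2
      rw [← pow_succ] at h2
      have h3 := hj'.lip hx hρ ha (ball_subset_ball (by linarith) ht)
      have h4 : (hm L x (g ^ (j + 1)) t - t) - ((j + 1 : ℕ) : ℝ) • (hm L x g t - t)
          = ((hm L x (g ^ j) t - t) - (j : ℝ) • (hm L x g t - t))
            + ((hm L x (g ^ j) (hm L x g t) - hm L x g t) - (hm L x (g ^ j) t - t)) := by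
        rw [h2, Nat.cast_succ, add_smul, one_smul]; abel
      rw [h4]
      refine (norm_add_le _ _).trans ?_
      push_cast
      linarith
  have h1 := key n le_rfl
  have h2 := (hg n le_rfl t ht4).2
  have h3 : ‖(n : ℝ) • (hm L x g t - t)‖ = n * ‖hm L x g t - t‖ := by
    rw [norm_smul, Real.norm_natCast]
  have h4 := norm_sub_norm_le ((n : ℝ) • (hm L x g t - t)) (hm L x (g ^ n) t - t)
  rw [norm_sub_rev] at h1
  linarith

theorem pow_est {x : M} (hx : x ∈ L.S) {c : F} {ρ δ : ℝ} (hρ : 0 < ρ)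
    (hK : closedBall c (4 * ρ) ⊆ L.π x '' L.U x)
    (hB : ∀ g ∈ SS L x c ρ, ‖vv L x c ρ g‖ < δ → Big L x c ρ g) {g : G} (hg : g ∈ SS L x c ρ)
    (hv : ‖vv L x c ρ g‖ < δ) (j : ℕ) (hj : 3 / 2 * j * ‖vv L x c ρ g‖ < δ) :
    g ^ j ∈ SS L x c ρ ∧ ‖vv L x c ρ (g ^ j)‖ ≤ 3 / 2 * j * ‖vv L x c ρ g‖ := by
  have hs : closedBall c ρ ⊆ closedBall c (4 * ρ) := closedBall_subset_closedBall (by linarith)
  induction j with
  | zero =>
    have h1 : (1 : G) ∈ SS L x c ρ := fun t ht => by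
      obtain ⟨y, hy, rfl⟩ := hK (hs ht)
      exact (df_one hx hy).1
    refine ⟨by simpa using h1, ?_⟩
    simp only [pow_zero, Nat.cast_zero, mul_zero, zero_mul]
    refine vv_le hx h1 le_rfl fun t ht => ?_
    obtain ⟨y, hy, rfl⟩ := hK (hs ht)
    simp [(df_one hx hy).2]
  | succ j ih =>
    have h0 := norm_nonneg (vv L x c ρ g)
    push_cast at hj ⊢
    obtain ⟨h1, h2⟩ := ih (by nlinarith)
    have hB1 := hB _ h1 (by nlinarith)
    obtain ⟨h3, h4⟩ := mul_est hx hρ hB1 (hB g hg hv) (Λ := 1 / 2) (by norm_num)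
      fun a ha b hb => hB1.lip hx hρ (ball_subset_ball (by linarith) ha)
        (ball_subset_ball (by linarith) hb)
    rw [pow_succ]
    refine ⟨h3, ?_⟩
    have h5 : vv L x c ρ (g ^ j * g) = (vv L x c ρ (g ^ j * g) - vv L x c ρ (g ^ j) - vv L x c ρ g)
      + vv L x c ρ (g ^ j) + vv L x c ρ g := by abel
    rw [h5]
    refine (norm_add₃_le).trans ?_
    linarith

/-- the displacement on the double ball is controlled by the displacement on the ball -/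
theorem bd_est {x : M} (hx : x ∈ L.S) {c : F} {ρ δ : ℝ} (hρ : 0 < ρ) (hδ : 0 < δ)
    (hK : closedBall c (4 * ρ) ⊆ L.π x '' L.U x)
    (hB : ∀ g ∈ SS L x c ρ, ‖vv L x c ρ g‖ < δ → Big L x c ρ g) {g : G} (hg : g ∈ SS L x c ρ)
    (hv : ‖vv L x c ρ g‖ < δ / 3) {t : F} (ht : t ∈ ball c (2 * ρ)) :
    ‖hm L x g t - t‖ ≤ 3 * ρ / δ * ‖vv L x c ρ g‖ := by
  set s := ‖vv L x c ρ g‖ with hs
  have hs0 : 0 ≤ s := norm_nonneg _
  have main : ∀ n : ℕ, 1 ≤ n → 3 / 2 * n * s < δ → (n : ℝ) * ‖hm L x g t - t‖ ≤ ρ / 2 := by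
    intro n hn h1
    refine cartan hx hρ hK hn (fun j hj => ?_) ht
    have hj' : (j : ℝ) ≤ n := by exact_mod_cast hj
    have h2 : 3 / 2 * j * s < δ := lt_of_le_of_lt (by gcongr) h1
    obtain ⟨h3, h4⟩ := pow_est hx hρ hK hB hg (by linarith) j h2
    exact hB _ h3 (lt_of_le_of_lt h4 h2)
  rcases hs0.eq_or_lt with h0 | h0
  · rw [← h0, mul_zero]
    by_contra hc
    push Not at hc
    obtain ⟨n, hn⟩ := exists_nat_gt (ρ / 2 / ‖hm L x g t - t‖)
    have h1 := main (n + 1) (by omega) (by rw [← h0]; simpa using hδ)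
    rw [div_lt_iff₀ hc] at hn
    push_cast at h1
    nlinarith
  · set n := ⌊δ / (2 * s)⌋₊ with hn
    have h1 : (n : ℝ) ≤ δ / (2 * s) := Nat.floor_le (by positivity)
    have h2 : δ / (2 * s) < n + 1 := Nat.lt_floor_add_one _
    rw [le_div_iff₀ (by positivity)] at h1
    rw [div_lt_iff₀ (by positivity)] at h2
    have h3 : δ / 6 ≤ n * s := by nlinarith
    have h4 : 1 ≤ n := by
      by_contra h5
      have : n = 0 := by omega
      rw [this] at h3
      simp at h3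
      linarith
    have h5 := main n h4 (by nlinarith)
    rw [div_mul_eq_mul_div, le_div_iff₀ hδ]
    have h6 := norm_nonneg (hm L x g t - t)
    nlinarith

/-- non discreteness -/
theorem nd_aux {x : M} (hx : x ∈ L.S) (hgen : ∀ g : G, g ≠ 1 → ¬ L.R (L.act g x) x)
    (hW : ¬ L.Wand) : ∃ r > 0, ∀ ε > 0, ∃ a : G, a ≠ 1 ∧
      ∀ t ∈ closedBall (L.π x x) r, Df L x a t ∧ ‖hm L x a t - t‖ < ε := by
  have hxU := L.U_mem x hx
  have hUn := (L.U_opn x hx).mem_nhds hxU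
  have s := L.U_sub x hx
  set c := L.π x x with hc
  let A : Set M → Set G := fun W => {g | g ≠ 1 ∧ ∃ y ∈ W, ∃ z ∈ W, L.R (L.act g y) z}
  have hA : ∀ W ∈ 𝓝 x, (A W).Infinite := by
    intro W hWn hfin
    have h1 : ∀ g ∈ A W, ∃ V ∈ 𝓝 x, g ∉ A V := by
      intro g hg
      have h2 : ¬ Pt L (pure g) x := fun h => hgen g hg.1 (rel_of_pt hx h)
      simp only [Pt, eventually_pure, not_forall] at h2
      obtain ⟨W', hW', h3⟩ := h2
      obtain ⟨V, hV, h4⟩ := L.eqc x hx W' hW'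
      exact ⟨V, hV, fun h5 => h3 (h4 g h5.2 x (mem_of_mem_nhds hV))⟩
    choose! V hV using h1
    have h2 : W ∩ L.S ∩ ⋂ g ∈ A W, V g ∈ 𝓝 x :=
      inter_mem (inter_mem hWn (L.opn.mem_nhds hx))
        ((biInter_mem hfin).2 fun g hg => (hV g hg).1)
    refine hW ⟨interior (W ∩ L.S ∩ ⋂ g ∈ A W, V g), isOpen_interior,
      ⟨x, mem_interior_iff_mem_nhds.2 h2⟩, fun y hy => (interior_subset hy).1.2, ?_⟩
    intro g hg y hy z hz h3
    have hy' := interior_subset hy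
    have hz' := interior_subset hz
    have h4 : g ∈ A W := ⟨hg, y, hy'.1.1, z, hz'.1.1, h3⟩
    exact (hV g h4).2 ⟨hg, y, mem_iInter₂.1 hy'.2 g h4, z, mem_iInter₂.1 hz'.2 g h4, h3⟩
  have hloc : ∀ R > 0, ∃ V ∈ 𝓝 x, ∃ r > 0, ∀ g, (∃ y ∈ V, ∃ z ∈ V, L.R (L.act g y) z) →
      ∀ t ∈ ball c r, Df L x g t ∧ hm L x g t ∈ ball c R := by
    intro R hR
    obtain ⟨V, hV, hV1⟩ := L.eqc x hx _ (nhds_chart hx hxU (ball_mem_nhds c hR))
    obtain ⟨r, hr, hrs⟩ := Metric.mem_nhds_iff.1 (L.π_opn x hx x hxU _ (inter_mem hV hUn))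
    refine ⟨V, hV, r, hr, fun g hg t ht => ?_⟩
    obtain ⟨y, ⟨hyV, hyU⟩, rfl⟩ := hrs ht
    obtain ⟨z, ⟨hzU, hz1⟩, h1⟩ := hV1 g hg y hyV
    exact ⟨⟨z, hzU, y, hyU, rfl, h1⟩, by rw [hm_eq hx hyU hzU h1]; exact hz1⟩
  obtain ⟨V₀, hV₀, r₀, hr₀, h₀⟩ := hloc 1 one_pos
  obtain ⟨V₁, hV₁, r₁, hr₁, h₁⟩ := hloc (r₀ / 2) (half_pos hr₀)
  set r := min r₁ (r₀ / 2) / 2 with hr
  have hm0 : 0 < min r₁ (r₀ / 2) := lt_min hr₁ (half_pos hr₀)
  have hr1 : r < r₁ := by linarith [min_le_left r₁ (r₀ / 2)]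
  have hr2 : r < r₀ / 2 := by linarith [min_le_right r₁ (r₀ / 2)]
  refine ⟨r, half_pos hm0, fun ε hε => ?_⟩
  set W := V₀ ∩ V₁ ∩ L.S with hWd
  have hWn : W ∈ 𝓝 x := inter_mem (inter_mem hV₀ hV₁) (L.opn.mem_nhds hx)
  set Λ := 2 * (1 + r₀) / (r₀ - r₀ / 2) with hΛ
  have hΛ0 : 0 ≤ Λ := div_nonneg (by linarith) (by linarith)
  have hlip : ∀ g, (∃ y ∈ V₀, ∃ z ∈ V₀, L.R (L.act g y) z) → ∀ a ∈ ball c (r₀ / 2),
      ∀ b ∈ ball c (r₀ / 2), ‖(hm L x g a - a) - (hm L x g b - b)‖ ≤ Λ * ‖a - b‖ := by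
    intro g hg a ha b hb
    refine lip_disp hx (half_lt_self hr₀) (fun t ht => (h₀ g hg t ht).1) (fun t ht => ?_) ha hb
    have h1 := (h₀ g hg t ht).2
    rw [mem_ball] at h1 ht
    rw [← dist_eq_norm]
    linarith [dist_triangle_right (hm L x g t) t c]
  have hA0 : ∀ g ∈ A W, ∃ y ∈ V₀, ∃ z ∈ V₀, L.R (L.act g y) z := by
    rintro g ⟨-, y, hy, z, hz, h1⟩
    exact ⟨y, hy.1.1, z, hz.1.1, h1⟩
  have hA1 : ∀ g ∈ A W, ∃ y ∈ V₁, ∃ z ∈ V₁, L.R (L.act g y) z := by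
    rintro g ⟨-, y, hy, z, hz, h1⟩
    exact ⟨y, hy.1.2, z, hz.1.2, h1⟩
  have hA0' : ∀ g ∈ A W, ∃ y ∈ V₀, ∃ z ∈ V₀, L.R (L.act g⁻¹ y) z := by
    rintro g ⟨-, y, hy, z, hz, h1⟩
    have h3 := L.rinv g⁻¹ _ (L.sinv g _ hy.2) _ hz.2 h1
    rw [← L.act_mul, inv_mul_cancel, L.act_one] at h3
    exact ⟨z, hz.1.1, y, hy.1.1, L.symm _ hy.2 _ (L.sinv _ _ hz.2) h3⟩
  have hS : ∀ g ∈ A W, g ∈ SS L x c r := fun g hg t ht =>
    (h₁ g (hA1 g hg) t (closedBall_subset_ball hr1 ht)).1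
  have htb : TotallyBounded (vv L x c r '' A W) := by
    refine An.tb_lip _ (r₀ / 2 + r) Λ ?_ ?_
    · rintro _ ⟨g, hg, rfl⟩ t
      rw [vv_apply hx (hS g hg), ← dist_eq_norm]
      have h1 := (h₁ g (hA1 g hg) t (closedBall_subset_ball hr1 t.2)).2
      have h2 := t.2
      rw [mem_ball] at h1
      rw [mem_closedBall] at h2
      linarith [dist_triangle_right (hm L x g t) t c]
    · rintro _ ⟨g, hg, rfl⟩ t t'
      rw [vv_apply hx (hS g hg), vv_apply hx (hS g hg), Subtype.dist_eq, dist_eq_norm]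
      exact hlip g (hA0 g hg) _ (closedBall_subset_ball hr2 t.2) _ (closedBall_subset_ball hr2 t'.2)
  obtain ⟨g, hg, g', hg', hne, hd⟩ := An.exists_close (hA W hWn) _ htb
    (show 0 < ε / (Λ + 1) by positivity)
  refine ⟨g'⁻¹ * g, fun h => hne (by rw [inv_mul_eq_one] at h; exact h.symm), fun t ht => ?_⟩
  have ht1 := closedBall_subset_ball hr1 ht
  obtain ⟨e1, e2⟩ := h₁ g (hA1 g hg) t ht1
  obtain ⟨e1', e2'⟩ := h₁ g' (hA1 g' hg') t ht1
  have hb : ball c (r₀ / 2) ⊆ ball c r₀ := ball_subset_ball (by linarith)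
  obtain ⟨f1, f2⟩ := e1.mul hx (h₀ g'⁻¹ (hA0' g' hg') _ (hb e2)).1
  obtain ⟨-, f2'⟩ := e1'.mul hx (h₀ g'⁻¹ (hA0' g' hg') _ (hb e2')).1
  have f3 : hm L x (g'⁻¹ * g') t = t := by
    obtain ⟨-, -, y, hy, rfl, -⟩ := e1
    rw [inv_mul_cancel]
    exact (df_one hx hy).2
  refine ⟨f1, ?_⟩
  have f4 := hlip g'⁻¹ (hA0' g' hg') _ e2 _ e2'
  have f5 : ‖hm L x g t - hm L x g' t‖ < ε / (Λ + 1) := by
    have h1 := BoundedContinuousFunction.dist_coe_le_dist (f := vv L x c r g) (g := vv L x c r g')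
      ⟨t, ht⟩
    rw [vv_apply hx (hS g hg), vv_apply hx (hS g' hg'), dist_eq_norm] at h1
    simp only [sub_sub_sub_cancel_right] at h1
    exact lt_of_le_of_lt h1 hd
  rw [← f2', f3, ← f2] at f4
  have f6 : hm L x (g'⁻¹ * g) t - t = (hm L x (g'⁻¹ * g) t - hm L x g t - (t - hm L x g' t))
      + (hm L x g t - hm L x g' t) := by abel
  rw [f6]
  refine lt_of_le_of_lt (norm_add_le _ _) ?_
  rw [lt_div_iff₀ (by linarith)] at f5
  linarith

theorem nd {x : M} (hx : x ∈ L.S) (hgen : ∀ g : G, g ≠ 1 → ¬ L.R (L.act g x) x)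
    (hW : ¬ L.Wand) : ∃ a : ℕ → G, (∀ k, a k ≠ 1) ∧ ∀ y ∈ L.S, Pt L (map a atTop) y := by
  obtain ⟨r, hr, h⟩ := nd_aux hx hgen hW
  choose a ha1 ha2 using fun k : ℕ => h (1 / ((k : ℝ) + 1)) Nat.one_div_pos_of_nat
  refine ⟨a, ha1, ?_⟩
  have hxU := L.U_mem x hx
  refine spread (O := interior (L.U x ∩ L.π x ⁻¹' ball (L.π x x) r)) isOpen_interior
    ⟨x, mem_interior_iff_mem_nhds.2 (nhds_chart hx hxU (ball_mem_nhds _ hr))⟩
    (fun w hw => L.U_sub x hx (interior_subset hw).1) fun w hw => ?_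
  obtain ⟨hwU, hw1⟩ := interior_subset hw
  have hw2 : L.π x w ∈ closedBall (L.π x x) r := ball_subset_closedBall hw1
  refine pt_of_tendsto hx hwU (eventually_map.2 (Eventually.of_forall fun k => (ha2 k _ hw2).1)) ?_
  rw [tendsto_map'_iff, tendsto_iff_norm_sub_tendsto_zero]
  exact squeeze_zero (fun k => norm_nonneg _) (fun k => (ha2 k _ hw2).2.le)
    tendsto_one_div_add_atTop_nhds_zero_nat

/-- **Theorem 1** (LOC): wandering, or a trivial element, or infinitesimal data. -/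
theorem tri [Countable G] (L : Leaf G M F) : L.Wand ∨ L.Triv ∨
    ∃ (c : F) (ρ : ℝ) (I : IG G (closedBall c ρ →ᵇ F)), L.Small I := by
  by_cases hW : L.Wand
  · exact Or.inl hW
  by_cases hT : L.Triv
  · exact Or.inr (Or.inl hT)
  refine Or.inr (Or.inr ?_)
  obtain ⟨x, hx, hgen⟩ := exists_generic hT
  have hxU := L.U_mem x hx
  obtain ⟨R, hR, hRs⟩ := Metric.nhds_basis_closedBall.mem_iff.1
    (L.π_opn x hx x hxU _ ((L.U_opn x hx).mem_nhds hxU))
  set c := L.π x x with hc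
  set ρ := R / 4 with hρd
  have hρ : 0 < ρ := by linarith
  have hK : closedBall c (4 * ρ) ⊆ L.π x '' L.U x := by
    rwa [show 4 * ρ = R by linarith]
  have hs : closedBall c ρ ⊆ closedBall c (4 * ρ) := closedBall_subset_closedBall (by linarith)
  have hP := pt_sm hx hρ
  obtain ⟨δ, hδ, hB⟩ := ev_sm.1 (unif hP hx (isCompact_closedBall c (4 * ρ)) hK
    (show 0 < ρ / 4 by linarith))
  have hlip : ∀ g ∈ SS L x c ρ, ‖vv L x c ρ g‖ < δ / 3 → ∀ a ∈ ball c (3 / 2 * ρ),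
      ∀ b ∈ ball c (3 / 2 * ρ),
      ‖(hm L x g a - a) - (hm L x g b - b)‖ ≤ 12 / δ * ‖vv L x c ρ g‖ * ‖a - b‖ := by
    intro g hg hv a ha b hb
    have := lip_disp hx (show 3 / 2 * ρ < 2 * ρ by linarith)
      (fun t ht => (hB g hg (by linarith) t
        (ball_subset_closedBall (ball_subset_ball (by linarith) ht))).1)
      (fun t ht => bd_est hx hρ hδ hK hB hg hv ht) ha hb
    refine this.trans_eq ?_
    congr 1
    field_simp
    ring
  have hone : (1 : G) ∈ SS L x c ρ := fun t ht => by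
    obtain ⟨y, hy, rfl⟩ := hK (hs ht)
    exact (df_one hx hy).1
  refine ⟨c, ρ,
    { S := SS L x c ρ
      v := vv L x c ρ
      C := 12 / δ
      δ := δ / 3
      δ_pos := by linarith
      one_mem := hone
      v_one := ?_
      inj := ?_
      mul := ?_
      inv := ?_
      conj := ?_
      tb := ?_
      nd := ?_ }, ?_⟩
  · rw [← norm_le_zero_iff]
    refine vv_le hx hone le_rfl fun t ht => ?_
    obtain ⟨y, hy, rfl⟩ := hK (hs ht)
    simp [(df_one hx hy).2]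
  · intro g hg h0
    by_contra hne
    refine hgen g hne (rel_of_pt hx ((hP x hx).mono ?_))
    intro T hT
    obtain ⟨η, hη, h2⟩ := ev_sm.1 hT
    exact h2 g hg (by change ‖vv L x c ρ g‖ < η; rw [h0, norm_zero]; exact hη)
  · intro g hg g' hg' hv hv'
    exact mul_est hx hρ (hB g hg (by linarith)) (hB g' hg' (by linarith)) (by positivity)
      (hlip g hg hv)
  · intro ε hε
    exact ev_sm.1 (eventually_map.1 (le_sm (fun y hy => (hP y hy).inv hy) hx (hs.trans hK) hε))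
  · intro γ ε hε
    exact ev_sm.1 (eventually_map.1 (le_sm (fun y hy => pt_conj hP γ hy) hx (hs.trans hK) hε))
  · refine An.tb_lip _ 1 (12 / δ) ?_ ?_
    · rintro _ ⟨g, -, rfl⟩ t
      refine (BoundedContinuousFunction.norm_coe_le_norm _ t).trans ?_
      rw [norm_smul, norm_inv, norm_norm]
      exact inv_mul_le_one_of_le₀ le_rfl (norm_nonneg _)
    · rintro _ ⟨g, ⟨hg, hv⟩, rfl⟩ t t'
      simp only [BoundedContinuousFunction.coe_smul]
      rw [← smul_sub, norm_smul, norm_inv, norm_norm, vv_apply hx hg, vv_apply hx hg,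
        Subtype.dist_eq, dist_eq_norm]
      have h2 := hlip g hg hv t (closedBall_subset_ball (by linarith) t.2) t'
        (closedBall_subset_ball (by linarith) t'.2)
      have h3 : ‖vv L x c ρ g‖⁻¹ * ‖vv L x c ρ g‖ ≤ 1 :=
        inv_mul_le_one_of_le₀ le_rfl (norm_nonneg _)
      calc _ ≤ ‖vv L x c ρ g‖⁻¹ * (12 / δ * ‖vv L x c ρ g‖ * ‖(t : F) - t'‖) := by gcongr
        _ = (‖vv L x c ρ g‖⁻¹ * ‖vv L x c ρ g‖) * (12 / δ * ‖(t : F) - t'‖) := by ring
        _ ≤ 1 * (12 / δ * ‖(t : F) - t'‖) := by gcongr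
        _ = _ := one_mul _
  · intro ε hε
    obtain ⟨a, ha1, ha2⟩ := nd hx hgen hW
    obtain ⟨k, hk⟩ := (eventually_map.1 (le_sm ha2 hx (hs.trans hK) hε)).exists
    exact ⟨a k, hk.1, ha1 k, hk.2⟩
  · intro y hy W hW'
    exact ev_sm.1 (hP y hy W hW')

end Crest.Agent.X261.Loc.Car
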