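import Crest.Agent.X261.Loc.Defs
import Crest.Agent.X261.Loc.An

/-!
# X261/Loc/Spr: return maps in a chart, spreading of convergence to the identity
-/

namespace Crest.Agent.X261.Loc.Spr

open Filter Topology Set Metric
open Crest.Agent.X261.Loc

variable {G : Type*} [Group G] {M : Type*} [TopologicalSpace M]
  {F : Type*} [NormedAddCommGroup F] [NormedSpace ℂ F] (L : Leaf G M F)

/-- the return map of `g` in the chart at `x` is defined at `t` -/
def Df (x : M) (g : G) (t : F) : Prop :=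
  ∃ z ∈ L.U x, ∃ y ∈ L.U x, L.π x y = t ∧ L.R (L.act g y) z

open Classical in
/-- the return map -/
noncomputable def hm (x : M) (g : G) (t : F) : F :=
  if h : Df L x g t then L.π x h.choose else t

/-- pointwise convergence to the identity on the leaf space along a filter on `G` -/
def Pt (l : Filter G) (x : M) : Prop :=
  ∀ W ∈ 𝓝 x, ∀ᶠ g in l, ∃ z ∈ W, L.R (L.act g x) z

variable {L}

theorem hm_eq {x : M} (hx : x ∈ L.S) {g : G} {y z : M} (hy : y ∈ L.U x) (hz : z ∈ L.U x)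
    (h : L.R (L.act g y) z) : hm L x g (L.π x y) = L.π x z := by
  have hD : Df L x g (L.π x y) := ⟨z, hz, y, hy, rfl, h⟩
  rw [hm, dif_pos hD]
  obtain ⟨hz', y', hy', he, h'⟩ := hD.choose_spec
  have s := L.U_sub x hx
  have h1 : L.R y' y := (L.π_rel x hx y' hy' y hy).2 he
  have h2 := L.rinv g _ (s hy') _ (s hy) h1
  have h3 := L.trans _ (L.sinv g _ (s hy')) _ (L.sinv g _ (s hy)) _ (s hz) h2 h
  have h4 := L.symm _ (L.sinv g _ (s hy')) _ (s hz') h'
  have h5 := L.trans _ (s hz') _ (L.sinv g _ (s hy')) _ (s hz) h4 h3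
  exact (L.π_rel x hx _ hz' _ hz).1 h5

/-- a defined return can be read at any point over `t`. -/
theorem Df.spec {x : M} (hx : x ∈ L.S) {g : G} {y : M} (hy : y ∈ L.U x)
    (h : Df L x g (L.π x y)) :
    ∃ z ∈ L.U x, L.R (L.act g y) z ∧ hm L x g (L.π x y) = L.π x z := by
  obtain ⟨z, hz, y', hy', he, h'⟩ := h
  have s := L.U_sub x hx
  have h1 : L.R y y' := (L.π_rel x hx y hy y' hy').2 he.symm
  have h2 := L.rinv g _ (s hy) _ (s hy') h1
  have h3 := L.trans _ (L.sinv g _ (s hy)) _ (L.sinv g _ (s hy')) _ (s hz) h2 h'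
  exact ⟨z, hz, h3, hm_eq hx hy hz h3⟩

theorem Df.diff {x : M} (hx : x ∈ L.S) {g : G} {t : F} (h : Df L x g t) :
    DifferentiableAt ℂ (hm L x g) t := by
  obtain ⟨z, hz, y, hy, rfl, h'⟩ := h
  obtain ⟨f, hf, hev⟩ := L.hol x hx g y hy z hz h'
  refine hf.congr_of_eventuallyEq ?_
  have hN := L.π_opn x hx y hy _ (hev.and ((L.U_opn x hx).mem_nhds hy))
  filter_upwards [hN] with t ht
  obtain ⟨y', ⟨⟨z', hz', h1, h2⟩, hy'⟩, rfl⟩ := ht
  rw [hm_eq hx hy' hz' h1, h2]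

theorem df_one {x : M} (hx : x ∈ L.S) {y : M} (hy : y ∈ L.U x) :
    Df L x 1 (L.π x y) ∧ hm L x 1 (L.π x y) = L.π x y := by
  have h : L.R (L.act 1 y) y := by rw [L.act_one]; exact L.refl y (L.U_sub x hx hy)
  exact ⟨⟨y, hy, y, hy, rfl, h⟩, hm_eq hx hy hy h⟩

theorem Df.mul {x : M} (hx : x ∈ L.S) {g g' : G} {t : F} (h' : Df L x g' t)
    (h : Df L x g (hm L x g' t)) :
    Df L x (g * g') t ∧ hm L x (g * g') t = hm L x g (hm L x g' t) := by
  obtain ⟨z, hz, y, hy, rfl, h1⟩ := h'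
  have s := L.U_sub x hx
  rw [hm_eq hx hy hz h1] at h ⊢
  obtain ⟨w, hw, h2, h3⟩ := h.spec hx hz
  have h4 := L.rinv g _ (L.sinv g' _ (s hy)) _ (s hz) h1
  have h5 := L.trans _ (L.sinv g _ (L.sinv g' _ (s hy))) _ (L.sinv g _ (s hz)) _ (s hw) h4 h2
  rw [← L.act_mul] at h5
  exact ⟨⟨w, hw, y, hy, rfl, h5⟩, by rw [hm_eq hx hy hw h5, h3]⟩

theorem Pt.mono {l l' : Filter G} {x : M} (h : Pt L l x) (hl : l' ≤ l) : Pt L l' x :=
  fun W hW => hl (h W hW)

/-- equicontinuity turns pointwise convergence into local uniform convergence. -/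
theorem Pt.loc {l : Filter G} {x : M} (hx : x ∈ L.S) (h : Pt L l x) {W : Set M} (hW : W ∈ 𝓝 x) :
    ∃ V ∈ 𝓝 x, ∀ᶠ g in l, ∀ y ∈ V, ∃ z ∈ W, L.R (L.act g y) z := by
  obtain ⟨V, hV, h1⟩ := L.eqc x hx W hW
  refine ⟨V, hV, (h V hV).mono fun g hg => h1 g ⟨x, mem_of_mem_nhds hV, hg⟩⟩

theorem nhds_chart {x : M} (hx : x ∈ L.S) {y : M} (hy : y ∈ L.U x) {N : Set F}
    (hN : N ∈ 𝓝 (L.π x y)) : L.U x ∩ L.π x ⁻¹' N ∈ 𝓝 y :=
  inter_mem ((L.U_opn x hx).mem_nhds hy)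
    (((L.π_cont x hx).continuousAt ((L.U_opn x hx).mem_nhds hy)).preimage_mem_nhds hN)

/-- chart criterion for pointwise convergence. -/
theorem pt_of_tendsto {l : Filter G} {x : M} (hx : x ∈ L.S) {y : M} (hy : y ∈ L.U x)
    (hD : ∀ᶠ g in l, Df L x g (L.π x y))
    (ht : Tendsto (fun g => hm L x g (L.π x y)) l (𝓝 (L.π x y))) : Pt L l y := by
  intro W hW
  have s := L.U_sub x hx
  have hN := L.π_opn x hx y hy _ (inter_mem hW ((L.U_opn x hx).mem_nhds hy))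
  filter_upwards [hD, ht.eventually hN] with g h1 h2
  obtain ⟨z, hz, h3, h4⟩ := h1.spec hx hy
  obtain ⟨w, ⟨hw, hwU⟩, h5⟩ := h2
  refine ⟨w, hw, L.trans _ (L.sinv g _ (s hy)) _ (s hz) _ (s hwU) h3 ?_⟩
  exact (L.π_rel x hx _ hz _ hwU).2 (by rw [h5, h4])

theorem Pt.tendsto {l : Filter G} {x : M} (hx : x ∈ L.S) {y : M} (hy : y ∈ L.U x)
    (h : Pt L l y) : Tendsto (fun g => hm L x g (L.π x y)) l (𝓝 (L.π x y)) := by
  intro N hN
  rw [mem_map]
  filter_upwards [h _ (nhds_chart hx hy hN)] with g hg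
  obtain ⟨z, ⟨hz, hzN⟩, h1⟩ := hg
  change hm L x g (L.π x y) ∈ N
  rw [hm_eq hx hy hz h1]
  exact hzN

/-- Hausdorff property of the leaf space in the needed form. -/
theorem rel_of_pt {g : G} {x : M} (hx : x ∈ L.S) (h : Pt L (pure g) x) :
    L.R (L.act g x) x := by
  have hxU := L.U_mem x hx
  have h1 := (h.tendsto hx hxU)
  have h2 : hm L x g (L.π x x) = L.π x x :=
    tendsto_nhds_unique (tendsto_pure_nhds (fun g => hm L x g (L.π x x)) g) h1
  obtain ⟨z, hz, h3⟩ := h _ ((L.U_opn x hx).mem_nhds hxU)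
  rw [hm_eq hx hxU hz h3] at h2
  exact L.trans _ (L.sinv g _ hx) _ (L.U_sub x hx hz) _ hx h3 ((L.π_rel x hx _ hz _ hxU).2 h2)

theorem pt_of_rel {g : G} {x : M} (h : L.R (L.act g x) x) : Pt L (pure g) x :=
  fun _ hW => ⟨x, mem_of_mem_nhds hW, h⟩

/-- **Spreading**: convergence to the identity on a nonempty open set gives convergence
everywhere. -/
theorem spread [ProperSpace F] {l : Filter G} {O : Set M} (hO : IsOpen O) (hne : O.Nonempty)
    (hOS : O ⊆ L.S) (h : ∀ x ∈ O, Pt L l x) : ∀ x ∈ L.S, Pt L l x := by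
  set Z := interior {x | Pt L l x} with hZ
  have key : ∀ x ∈ L.S, x ∈ closure Z → x ∈ Z := by
    intro x hx hxc
    have hxU := L.U_mem x hx
    have hUn := (L.U_opn x hx).mem_nhds hxU
    set c := L.π x x with hc
    obtain ⟨V, hV, hV1⟩ := L.eqc x hx _ (nhds_chart hx hxU (ball_mem_nhds c one_pos))
    obtain ⟨R, hR, hRs⟩ := Metric.mem_nhds_iff.1 (L.π_opn x hx x hxU _ (inter_mem hV hUn))
    have hN : V ∩ (L.U x ∩ L.π x ⁻¹' ball c (R / 4)) ∈ 𝓝 x :=
      inter_mem hV (nhds_chart hx hxU (ball_mem_nhds c (by linarith)))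
    obtain ⟨b, hbN, hbZ⟩ := mem_closure_iff_nhds.1 hxc _ (interior_mem_nhds.2 hN)
    have hbN' := interior_subset hbN
    have hbU : b ∈ L.U x := hbN'.2.1
    have hbc : dist (L.π x b) c < R / 4 := hbN'.2.2
    have hbP : Pt L l b := interior_subset hbZ
    have hVb : V ∈ 𝓝 b := mem_of_superset (isOpen_interior.mem_nhds hbN)
      (interior_subset.trans inter_subset_left)
    have hev : ∀ᶠ g in l, ∀ t ∈ ball c R, Df L x g t ∧ hm L x g t ∈ ball c 1 := by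
      filter_upwards [hbP V hVb] with g hg t ht
      obtain ⟨y, ⟨hyV, hyU⟩, rfl⟩ := hRs ht
      obtain ⟨z, ⟨hzU, hz1⟩, h1⟩ := hV1 g ⟨b, hbN'.1, hg⟩ y hyV
      exact ⟨⟨z, hzU, y, hyU, rfl, h1⟩, by rw [hm_eq hx hyU hzU h1]; exact hz1⟩
    obtain ⟨r, hr, hrs⟩ := Metric.mem_nhds_iff.1 (L.π_opn x hx b hbU _
      (inter_mem (isOpen_interior.mem_nhds hbZ) ((L.U_opn x hx).mem_nhds hbU)))
    have hsub : ball (L.π x b) (R / 2) ⊆ ball c R := by
      intro t ht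
      rw [mem_ball] at *
      linarith [dist_triangle t (L.π x b) c]
    have hvit : ∀ t ∈ ball (L.π x b) (R / 2),
        Tendsto (fun g => hm L x g t - t) l (𝓝 0) := by
      intro t ht
      refine An.vitali (f := fun g t => hm L x g t - t) (A := 1 + R) hr ?_ ?_ ht
      · filter_upwards [hev] with g hg
        refine ⟨fun s hs => (((hg s (hsub hs)).1.diff hx).sub differentiableAt_id).differentiableWithinAt,
          fun s hs => ?_⟩
        have h1 := (hg s (hsub hs)).2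
        have h2 := hsub hs
        rw [mem_ball] at h1 h2
        rw [← dist_eq_norm]
        linarith [dist_triangle_right (hm L x g s) s c]
      · intro s hs
        obtain ⟨y, ⟨hyZ, hyU⟩, rfl⟩ := hrs hs
        have := (Pt.tendsto hx hyU (interior_subset hyZ)).sub_const (L.π x y)
        simpa using this
    refine mem_interior_iff_mem_nhds.2 (mem_of_superset
      (nhds_chart hx hxU (ball_mem_nhds c (show 0 < R / 4 by linarith))) ?_)
    rintro y ⟨hyU, hy⟩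
    have hy1 : L.π x y ∈ ball (L.π x b) (R / 2) := by
      have : dist (L.π x y) c < R / 4 := hy
      rw [mem_ball]
      linarith [dist_triangle_right (L.π x y) (L.π x b) c]
    refine pt_of_tendsto hx hyU (hev.mono fun g hg => (hg _ (hsub hy1)).1) ?_
    have := (hvit _ hy1).add_const (L.π x y)
    simpa using this
  have hsubZ : L.S ⊆ Z := by
    refine L.conn.subset_of_closure_inter_subset isOpen_interior ?_ ?_
    · obtain ⟨x, hx⟩ := hne
      exact ⟨x, hOS hx, mem_interior.2 ⟨O, h, hO, hx⟩⟩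
    · rintro x ⟨h1, h2⟩
      exact key x h2 h1
  exact fun x hx => interior_subset (hsubZ hx)

/-- uniform convergence on compact subsets of a chart. -/
theorem unif {l : Filter G} (h : ∀ x ∈ L.S, Pt L l x) {x : M} (hx : x ∈ L.S) {K : Set F}
    (hK : IsCompact K) (hKU : K ⊆ L.π x '' L.U x) {ε : ℝ} (hε : 0 < ε) :
    ∀ᶠ g in l, ∀ t ∈ K, Df L x g t ∧ ‖hm L x g t - t‖ < ε := by
  refine An.ev_compact hK ?_
  intro t ht
  obtain ⟨y, hy, rfl⟩ := hKU ht
  have hyS := L.U_sub x hx hy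
  obtain ⟨V, hV, hev⟩ := (h y hyS).loc hyS
    (nhds_chart hx hy (ball_mem_nhds (L.π x y) (half_pos hε)))
  refine ⟨_, inter_mem (L.π_opn x hx y hy _ (inter_mem hV ((L.U_opn x hx).mem_nhds hy)))
    (ball_mem_nhds (L.π x y) (half_pos hε)), ?_⟩
  filter_upwards [hev] with g hg
  rintro s ⟨⟨y', ⟨hy'V, hy'U⟩, rfl⟩, hs⟩
  obtain ⟨z, ⟨hzU, hz⟩, h1⟩ := hg y' hy'V
  refine ⟨⟨z, hzU, y', hy'U, rfl, h1⟩, ?_⟩
  rw [hm_eq hx hy'U hzU h1, ← dist_eq_norm]
  have hz' : dist (L.π x z) (L.π x y) < ε / 2 := hz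
  rw [mem_ball] at hs
  linarith [dist_triangle_right (L.π x z) (L.π x y') (L.π x y)]

theorem Pt.inv {l : Filter G} {x : M} (hx : x ∈ L.S) (h : Pt L l x) :
    Pt L (l.map fun g => g⁻¹) x := by
  intro W hW
  obtain ⟨V, hV, h1⟩ := L.eqc x hx W hW
  rw [eventually_map]
  filter_upwards [h _ (inter_mem hV (L.opn.mem_nhds hx))] with g hg
  obtain ⟨z, ⟨hzV, hzS⟩, h2⟩ := hg
  have h3 := L.rinv g⁻¹ _ (L.sinv g _ hx) _ hzS h2
  rw [← L.act_mul, inv_mul_cancel, L.act_one] at h3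
  exact h1 g⁻¹ ⟨z, hzV, x, mem_of_mem_nhds hV, L.symm _ hx _ (L.sinv _ _ hzS) h3⟩ x
    (mem_of_mem_nhds hV)

theorem pt_conj {l : Filter G} (h : ∀ x ∈ L.S, Pt L l x) (γ : G) {x : M} (hx : x ∈ L.S) :
    Pt L (l.map fun g => γ * g * γ⁻¹) x := by
  intro W hW
  have hx' := L.sinv γ⁻¹ x hx
  have he : L.act γ (L.act γ⁻¹ x) = x := by rw [← L.act_mul, mul_inv_cancel, L.act_one]
  have hW' : L.act γ ⁻¹' W ∈ 𝓝 (L.act γ⁻¹ x) :=
    (L.cont γ).continuousAt.preimage_mem_nhds (by rwa [he])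
  rw [eventually_map]
  filter_upwards [h _ hx' _ (inter_mem hW' (L.opn.mem_nhds hx'))] with g hg
  obtain ⟨z, ⟨hzW, hzS⟩, h2⟩ := hg
  refine ⟨L.act γ z, hzW, ?_⟩
  rw [L.act_mul, L.act_mul]
  exact L.rinv γ _ (L.sinv g _ hx') _ hzS h2

/-- Baire: a point moved off its class by every nontrivial element. -/
theorem exists_generic [ProperSpace F] [Countable G] (hT : ¬ L.Triv) :
    ∃ x ∈ L.S, ∀ g : G, g ≠ 1 → ¬ L.R (L.act g x) x := by
  obtain ⟨x, hx⟩ := L.ne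
  have hxU := L.U_mem x hx
  have s := L.U_sub x hx
  obtain ⟨r, hr, hrs⟩ := Metric.mem_nhds_iff.1
    (L.π_opn x hx x hxU _ ((L.U_opn x hx).mem_nhds hxU))
  let T : {g : G // g ≠ 1} → Set F := fun g =>
    L.π x '' {y | y ∈ L.U x ∧ L.R (L.act g y) y}
  have hcl : ∀ g : {g : G // g ≠ 1}, ∀ y ∈ L.U x, L.π x y ∈ closure (T g) →
      L.R (L.act g y) y := by
    intro g y hy hc
    refine rel_of_pt (s hy) fun W hW => ?_
    obtain ⟨V, hV, h1⟩ := L.eqc y (s hy) W hW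
    obtain ⟨t, ⟨y', ⟨hy'V, hy'U⟩, rfl⟩, y'', ⟨hy''U, h2⟩, he⟩ := mem_closure_iff_nhds.1 hc _
      (L.π_opn x hx y hy _ (inter_mem hV ((L.U_opn x hx).mem_nhds hy)))
    have h3 : L.R y'' y' := (L.π_rel x hx _ hy''U _ hy'U).2 he
    have h4 := L.rinv g _ (s hy'U) _ (s hy''U) (L.symm _ (s hy''U) _ (s hy'U) h3)
    have h5 := L.trans _ (L.sinv _ _ (s hy'U)) _ (L.sinv _ _ (s hy''U)) _ (s hy''U) h4 h2
    have h6 := L.trans _ (L.sinv _ _ (s hy'U)) _ (s hy''U) _ (s hy'U) h5 h3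
    exact h1 g ⟨y', hy'V, y', hy'V, h6⟩ y (mem_of_mem_nhds hV)
  have hd : ∀ g : {g : G // g ≠ 1}, Dense (closure (T g))ᶜ := by
    intro g
    rw [← interior_eq_empty_iff_dense_compl]
    by_contra hne
    obtain ⟨t, ht⟩ := nonempty_iff_ne_empty.2 hne
    obtain ⟨t', ht', y, ⟨hy, -⟩, rfl⟩ := mem_closure_iff_nhds.1 (interior_subset ht) _
      (isOpen_interior.mem_nhds ht)
    refine hT ⟨g, g.2, fun z hz => rel_of_pt hz ?_⟩
    refine spread (O := interior (L.U x ∩ L.π x ⁻¹' interior (closure (T g)))) isOpen_interior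
      ⟨y, mem_interior_iff_mem_nhds.2 (nhds_chart hx hy (isOpen_interior.mem_nhds ht'))⟩
      (fun w hw => s (interior_subset hw).1) (fun w hw => ?_) z hz
    have hw' := interior_subset hw
    exact pt_of_rel (hcl g w hw'.1 (interior_subset hw'.2))
  have hD := dense_iInter_of_isOpen (fun g => isClosed_closure.isOpen_compl) hd
  obtain ⟨t, ht1, ht2⟩ := hD.inter_open_nonempty _ isOpen_ball ⟨_, mem_ball_self hr⟩
  obtain ⟨y, hy, rfl⟩ := hrs ht1
  refine ⟨y, s hy, fun g hg h1 => ?_⟩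
  exact (mem_iInter.1 ht2 ⟨g, hg⟩) (subset_closure ⟨y, ⟨hy, h1⟩, rfl⟩)

end Crest.Agent.X261.Loc.Spr
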